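import Vale.Agent.P073Y.Cut.Sk
import Vale.Agent.P073Z.RCX

/-!
# Boxes, their sections and lines
-/

open Set Metric Topology Filter

namespace P073.Cut

namespace Box

variable {E F : Type} [NormedAddCommGroup E] [NormedSpace ℝ E] [NormedAddCommGroup F]
  [NormedSpace ℝ F]

theorem conicalOn_aff {f : E → F} {X : Set E} (hX : Convex ℝ X)
    (h : ∀ x v (t : ℝ), f (x + t • v) = f x + t • (f (x + v) - f x)) : ConicalOn f X :=
  fun x hx => ⟨1, one_pos, fun v _ hv t ht =>
    ⟨by simpa using hX.add_smul_sub_mem hx hv ht, h x v t⟩⟩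

theorem ball_of {n : ℕ} {C B : Set E} {C' B' : Set F} (Φ : ConHomeo C C') (h : ConBall n C' B')
    (hB : B ⊆ C) (hi : ∀ x ∈ C, x ∈ B ↔ Φ.toFun x ∈ B') : ConBall n C B := by
  have h1 := h.image Φ.symm Subset.rfl
  have h2 : Φ.symm.toFun '' B' = B := by
    ext x
    constructor
    · rintro ⟨y, hy, rfl⟩
      refine (hi _ (Φ.mapsTo_inv (h.1 hy))).2 ?_
      rw [Φ.right_inv (h.1 hy)]
      exact hy
    · exact fun hx => ⟨Φ.toFun x, (hi x (hB hx)).1 hx, Φ.left_inv (hB hx)⟩
  rwa [Φ.symm.image_eq, h2] at h1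

variable {n : ℕ} {lo hi : Fin n → ℝ}

/-- the affine map from a box onto the cube -/
noncomputable def cube (h : ∀ i, lo i < hi i) :
    ConHomeo (Icc lo hi) (closedBall (0 : Fin n → ℝ) 1) where
  toFun y i := (2 * y i - (lo i + hi i)) / (hi i - lo i)
  invFun x i := ((lo i + hi i) + x i * (hi i - lo i)) / 2
  mapsTo y hy := by
    rw [mem_closedBall_zero_iff, pi_norm_le_iff_of_nonneg zero_le_one]
    intro i
    have h1 := sub_pos.2 (h i)
    rw [Real.norm_eq_abs, abs_div, abs_of_pos h1, div_le_one h1, abs_le]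
    exact ⟨by linarith [hy.1 i], by linarith [hy.2 i]⟩
  mapsTo_inv x hx := by
    rw [mem_closedBall_zero_iff, pi_norm_le_iff_of_nonneg zero_le_one] at hx
    have h2 : ∀ i, -1 ≤ x i ∧ x i ≤ 1 := fun i => abs_le.1 (hx i)
    constructor <;> intro i <;> nlinarith [sub_pos.2 (h i), (h2 i).1, (h2 i).2]
  left_inv y _ := by
    funext i
    have h1 := (sub_pos.2 (h i)).ne'
    field_simp
    ring
  right_inv x _ := by
    funext i
    have h1 := (sub_pos.2 (h i)).ne'
    field_simp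
    ring
  cont := by fun_prop
  cont_inv := by fun_prop
  conical := conicalOn_aff (convex_Icc lo hi) fun x v t => by
    funext i
    simp only [Pi.add_apply, Pi.smul_apply, Pi.sub_apply, smul_eq_mul]
    ring

theorem conBall_Icc (h : ∀ i, lo i < hi i) :
    ConBall n (Icc lo hi) {y ∈ Icc lo hi | ∃ i, y i = lo i ∨ y i = hi i} := by
  have h0 : ConBall n (closedBall (0 : Fin n → ℝ) 1) (sphere 0 1) :=
    ⟨sphere_subset_closedBall, ConHomeo.refl (locCone_closedBall_pi n 1).conicalSet, image_id' _⟩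
  refine ball_of (cube h) h0 (sep_subset _ _) fun y hy => ?_
  have h1 := mem_closedBall_zero_iff.1 ((cube h).mapsTo hy)
  rw [mem_sphere_zero_iff_norm, le_antisymm_iff, and_iff_right h1, ← not_lt,
    pi_norm_lt_iff one_pos, not_forall, mem_sep_iff, and_iff_right hy]
  refine exists_congr fun i => ?_
  have h2 := sub_pos.2 (h i)
  change _ ↔ ¬ |(2 * y i - (lo i + hi i)) / (hi i - lo i)| < 1
  rw [abs_div, abs_of_pos h2, div_lt_one h2, not_lt, le_abs]
  constructor
  · rintro (h3 | h3)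
    · exact Or.inr (by linarith)
    · exact Or.inl (by linarith)
  · rintro (h3 | h3)
    · exact Or.inr (by linarith [hy.2 i])
    · exact Or.inl (by linarith [hy.1 i])

theorem frontier_box (lo hi : Fin n → ℝ) :
    frontier (Icc lo hi) = {y ∈ Icc lo hi | ∃ i, y i = lo i ∨ y i = hi i} := by
  rw [frontier, closure_Icc]
  ext y
  rw [Set.mem_sdiff, mem_sep_iff]
  refine and_congr_right fun hy => ?_
  rw [← pi_univ_Icc, interior_pi_set finite_univ, mem_univ_pi, not_forall]
  refine exists_congr fun i => ?_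
  rw [interior_Icc, mem_Ioo, not_and_or, not_lt, not_lt]
  exact or_congr ⟨fun h => le_antisymm h (hy.1 i), fun h => h.le⟩
    ⟨fun h => le_antisymm (hy.2 i) h, fun h => h.ge⟩

/-- a section of a box is a box -/
def sect {lo hi : Fin (n + 1) → ℝ} (k : Fin (n + 1)) {a : ℝ} (ha : a ∈ Icc (lo k) (hi k)) :
    ConHomeo {y ∈ Icc lo hi | y k = a}
      (Icc (fun j => lo (k.succAbove j)) fun j => hi (k.succAbove j)) where
  toFun y j := y (k.succAbove j)
  invFun z := k.insertNth a z
  mapsTo y hy := ⟨fun _ => hy.1.1 _, fun _ => hy.1.2 _⟩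
  mapsTo_inv z hz := ⟨Fin.insertNth_mem_Icc.2 ⟨ha, hz⟩, Fin.insertNth_apply_same _ _ _⟩
  left_inv y hy := by
    rw [← hy.2]
    exact Fin.insertNth_self_removeNth k y
  right_inv z _ := funext fun j => Fin.insertNth_apply_succAbove (α := fun _ => ℝ) _ _ _ _
  cont := by fun_prop
  cont_inv := (Continuous.finInsertNth (A := fun _ => ℝ) k (f := fun _ => a) (g := fun z => z)
    continuous_const continuous_id).continuousOn
  conical := conicalOn_aff ((convex_Icc lo hi).inter (convex_hyperplane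
    (f := fun y : Fin (n + 1) → ℝ => y k) ⟨fun _ _ => rfl, fun _ _ => rfl⟩ a)) fun x v t => by
      funext i
      simp only [Pi.add_apply, Pi.smul_apply, Pi.sub_apply, smul_eq_mul]
      ring

theorem conBall_sect {lo hi : Fin (n + 1) → ℝ} (h : ∀ i, lo i < hi i) (k : Fin (n + 1)) {a : ℝ}
    (ha : a ∈ Ioo (lo k) (hi k)) :
    ConBall n {y ∈ Icc lo hi | y k = a} {y ∈ frontier (Icc lo hi) | y k = a} := by
  rw [frontier_box]
  refine ball_of (sect k (Ioo_subset_Icc_self ha)) (conBall_Icc fun j => h _)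
    (fun y hy => ⟨hy.1.1, hy.2⟩) fun y hy => ?_
  constructor
  · rintro ⟨⟨-, i, hi⟩, -⟩
    refine ⟨(sect k (Ioo_subset_Icc_self ha)).mapsTo hy, ?_⟩
    rcases Fin.eq_self_or_eq_succAbove k i with rfl | ⟨j, rfl⟩
    · rw [hy.2] at hi
      exact (hi.elim ha.1.ne' ha.2.ne).elim
    · exact ⟨j, hi⟩
  · rintro ⟨-, j, hj⟩
    exact ⟨⟨hy.1, k.succAbove j, hj⟩, hy.2⟩

/-- a vertical line in a box -/
def line {lo hi : E3} {a b : ℝ} (ha : a ∈ Icc (lo 0) (hi 0)) (hb : b ∈ Icc (lo 1) (hi 1)) :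
    ConHomeo (Icc (lo 2) (hi 2)) {y ∈ Icc lo hi | y 0 = a ∧ y 1 = b} where
  toFun t := ![a, b, t]
  invFun y := y 2
  mapsTo t ht := by
    refine ⟨⟨fun i => ?_, fun i => ?_⟩, rfl, rfl⟩ <;> fin_cases i
    exacts [ha.1, hb.1, ht.1, ha.2, hb.2, ht.2]
  mapsTo_inv y hy := ⟨hy.1.1 2, hy.1.2 2⟩
  left_inv _ _ := rfl
  right_inv y hy := by
    funext i
    fin_cases i
    exacts [hy.2.1.symm, hy.2.2.symm, rfl]
  cont := by fun_prop
  cont_inv := by fun_prop
  conical := conicalOn_aff (convex_Icc _ _) fun x v t => by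
    funext i
    fin_cases i <;> simp

end Box

open Box

theorem box : BOX := by
  intro lo hi h
  refine ⟨by rw [frontier_box]; exact conBall_Icc h, fun y => by rw [frontier_box]; rfl,
    fun k a ha => conBall_sect h k ha, fun a ha b hb => ⟨IsArc.of_param (h 2)
      (line (Ioo_subset_Icc_self ha) (Ioo_subset_Icc_self hb)) rfl rfl, ?_⟩⟩
  have hm := (line (Ioo_subset_Icc_self ha) (Ioo_subset_Icc_self hb)).mapsTo
  rw [frontier_box]
  ext y
  constructor
  · rintro ⟨⟨hy, i, hi⟩, h0, h1⟩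
    have e : y = ![a, b, y 2] := by
      funext j
      fin_cases j
      exacts [h0, h1, rfl]
    fin_cases i
    · exact (hi.elim (fun e => ha.1.ne' (h0.symm.trans e)) fun e => ha.2.ne (h0.symm.trans e)).elim
    · exact (hi.elim (fun e => hb.1.ne' (h1.symm.trans e)) fun e => hb.2.ne (h1.symm.trans e)).elim
    · exact hi.imp (fun e' => e.trans (congrArg (fun t => ![a, b, t]) e'))
        fun e' => e.trans (congrArg (fun t => ![a, b, t]) e')
  · rintro (rfl | rfl)
    · exact ⟨⟨(hm (left_mem_Icc.2 (h 2).le)).1, 2, Or.inl rfl⟩, rfl, rfl⟩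
    · exact ⟨⟨(hm (right_mem_Icc.2 (h 2).le)).1, 2, Or.inr rfl⟩, rfl, rfl⟩

end P073.Cut
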