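import Vale.Agent.P073Y.Cut.Sk
import Vale.Agent.P073Z.RCX

/-!
# Straightening of two families of walls which meet in arcs
-/

open Set Metric Topology Filter

namespace P073.Cut

namespace Grid

variable {E F : Type} [NormedAddCommGroup E] [NormedSpace ℝ E] [NormedAddCommGroup F]
  [NormedSpace ℝ F]

theorem image_sep {B : Set E} {B' : Set F} (φ : ConHomeo B B') (P : F → Prop) :
    φ.toFun '' {x ∈ B | P (φ.toFun x)} = {y ∈ B' | P y} := by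
  ext y
  constructor
  · rintro ⟨x, hx, rfl⟩
    exact ⟨φ.mapsTo hx.1, hx.2⟩
  · intro hy
    exact ⟨φ.invFun y, ⟨φ.mapsTo_inv hy.1, by rw [φ.right_inv hy.1]; exact hy.2⟩, φ.right_inv hy.1⟩

theorem eq_pair {α β : Type} {B S : Set α} {f : α → β} (hf : InjOn f B) (hS : S ⊆ B) {p q : α}
    {P Q : β} (h : f '' S = {P, Q}) (hp : p ∈ S) (hq : q ∈ S) (hpq : p ≠ q) : S = {p, q} := by
  refine Subset.antisymm (fun x hx => ?_) (insert_subset hp (singleton_subset_iff.2 hq))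
  have k : ∀ y ∈ S, f y = P ∨ f y = Q := fun y hy => by
    have := mem_image_of_mem f hy
    rwa [h] at this
  have h0 : f p ≠ f q := fun e => hpq (hf (hS hp) (hS hq) e)
  have h1 : f x = f p ∨ f x = f q := by
    rcases k x hx with a | a <;> rcases k p hp with b | b <;> rcases k q hq with c | c
    all_goals first
      | exact Or.inl (a.trans b.symm)
      | exact Or.inr (a.trans c.symm)
      | exact (h0 (b.trans c.symm)).elim
  exact h1.imp (hf (hS hx) (hS hp)) (hf (hS hx) (hS hq))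

/-- extension of the restriction of a map of the boundary -/
theorem extend {n : ℕ} {B D J : Set E} {B' D' J' : Set F} (φ : ConHomeo B B') (h : ConBall n D J)
    (h' : ConBall n D' J') (hJ : J ⊆ B) (hφ : φ.toFun '' J = J') :
    ∃ χ : ConHomeo D D', EqOn χ.toFun φ.toFun J := by
  obtain ⟨χ, e, -⟩ := h.exists_extend h' ((φ.restr h.conicalSet_bdry hJ).cast rfl hφ)
  exact ⟨χ, e⟩

end Grid

open Grid

theorem grid3_of (h1 : ONE 1) (h2 : ONE 2) (h3 : KEEP) (h4 : BOX) : GRID3 := by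
  intro E _ _ C B lo hi φ s t A W hlt hC hA hW dA dW hX
  obtain ⟨b3, bF, b2, b1⟩ := h4 hlt
  have hFQ : frontier (Icc lo hi) ⊆ Icc lo hi := b3.1
  have i0 : ∀ (k : Fin 3) (a : ℝ), {y ∈ Icc lo hi | y k = a} ∩ frontier (Icc lo hi) =
      {y ∈ frontier (Icc lo hi) | y k = a} := fun k a =>
    Set.ext fun y => ⟨fun h => ⟨h.2, h.1.2⟩, fun h => ⟨⟨hFQ h.1, h.2⟩, h.1⟩⟩
  have iA : ∀ a ∈ s, φ.toFun '' (A a ∩ B) = {y ∈ frontier (Icc lo hi) | y 0 = a} := fun a ha => by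
    rw [(hA a ha).2.2.2]
    exact image_sep φ fun y => y 0 = a
  have iW : ∀ b ∈ t, φ.toFun '' (W b ∩ B) = {y ∈ frontier (Icc lo hi) | y 1 = b} := fun b hb => by
    rw [(hW b hb).2.2.2]
    exact image_sep φ fun y => y 1 = b
  have bL : ∀ a ∈ s, ∀ b ∈ t, ConBall 1 {y ∈ Icc lo hi | y 0 = a ∧ y 1 = b}
      {y ∈ frontier (Icc lo hi) | y 0 = a ∧ y 1 = b} := fun a ha b hb => by
    obtain ⟨k1, k2⟩ := b1 a (hA a ha).1 b (hW b hb).1
    rw [k2]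
    exact k1.conBall
  have stepA : ∀ a ∈ s, ∃ ψ : E → E3, EqOn ψ φ.toFun (A a ∩ B) ∧
      (∃ χ : ConHomeo (A a) {y ∈ Icc lo hi | y 0 = a}, EqOn χ.toFun ψ (A a)) ∧
      ∀ b ∈ t, ψ '' (A a ∩ W b) = {y ∈ Icc lo hi | y 0 = a ∧ y 1 = b} := by
    intro a ha
    obtain ⟨ha0, hAC, hAb, hAB⟩ := hA a ha
    have j0 : ∀ b : ℝ, {y ∈ Icc lo hi | y 0 = a ∧ y 1 = b} ∩ {y ∈ frontier (Icc lo hi) | y 0 = a} =
        {y ∈ frontier (Icc lo hi) | y 0 = a ∧ y 1 = b} := fun b =>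
      Set.ext fun y => ⟨fun h => ⟨h.2.1, h.1.2⟩, fun h => ⟨⟨hFQ h.1, h.2⟩, h.1, h.2.1⟩⟩
    have j1 : ∀ b ∈ t, φ.toFun '' (A a ∩ W b ∩ (A a ∩ B)) =
        {y ∈ frontier (Icc lo hi) | y 0 = a ∧ y 1 = b} := by
      intro b hb
      rw [← image_sep φ fun y => y 0 = a ∧ y 1 = b]
      congr 1
      ext x
      have e1 := Set.ext_iff.1 hAB x
      have e2 := Set.ext_iff.1 (hW b hb).2.2.2 x
      exact ⟨fun h => ⟨h.2.2, (e1.1 h.2).2, (e2.1 ⟨h.1.2, h.2.2⟩).2⟩, fun h =>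
        ⟨⟨(e1.2 ⟨h.1, h.2.1⟩).1, (e2.2 ⟨h.1, h.2.2⟩).1⟩, e1.2 ⟨h.1, h.2.1⟩⟩⟩
    have j2 : ∀ b ∈ t, ConBall 1 (A a ∩ W b) (A a ∩ W b ∩ (A a ∩ B)) := by
      intro b hb
      obtain ⟨p, hp, q, hq, harc⟩ := hX a ha b hb
      rw [eq_pair φ.injOn (fun x hx => hx.2.2) ((j1 b hb).trans (b1 a ha0 b (hW b hb).1).2)
        ⟨harc.left_mem, harc.left_mem.1, hp⟩ ⟨harc.right_mem, harc.right_mem.1, hq⟩ harc.ne]
      exact harc.conBall
    have j3 : ∀ b ∈ t, ∃ ψ : E → E3, EqOn ψ φ.toFun (A a ∩ W b ∩ (A a ∩ B)) ∧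
        ∃ χ : ConHomeo (A a ∩ W b) {y ∈ Icc lo hi | y 0 = a ∧ y 1 = b},
          EqOn χ.toFun ψ (A a ∩ W b) := by
      intro b hb
      obtain ⟨χ, e⟩ := extend φ (j2 b hb) (bL a ha b hb) (fun x hx => hx.2.2) (j1 b hb)
      exact ⟨χ.toFun, e, χ, fun _ _ => rfl⟩
    choose! ψ hψ using j3
    obtain ⟨Φ, e1, e2⟩ := h1 t ((φ.restr hAb.conicalSet_bdry inter_subset_right).cast rfl (iA a ha))
      (fun b => A a ∩ W b) (fun b => {y ∈ Icc lo hi | y 0 = a ∧ y 1 = b}) ψ hAb (b2 0 a ha0)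
      (fun b hb => ⟨inter_subset_left, j2 b hb, fun y hy => ⟨hy.1, hy.2.1⟩,
        by rw [j0]; exact bL a ha b hb, by rw [j0]; exact j1 b hb, (hψ b hb).1, (hψ b hb).2⟩)
      (fun b hb b' hb' hne => ⟨(dW b hb b' hb' hne).mono inter_subset_right inter_subset_right,
        disjoint_left.2 fun y hy hy' => hne (hy.2.2.symm.trans hy'.2.2)⟩)
    refine ⟨Φ.toFun, e1, ⟨Φ, fun _ _ => rfl⟩, fun b hb => ?_⟩
    obtain ⟨χ, hχ⟩ := (hψ b hb).2
    rw [(e2 b hb).image_eq, ← hχ.image_eq, χ.image_eq]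
  choose! ψ hψ using stepA
  obtain ⟨Φ₁, e1, e2⟩ := h2 s φ A (fun a => {y ∈ Icc lo hi | y 0 = a}) ψ hC b3
    (fun a ha => ⟨(hA a ha).2.1, (hA a ha).2.2.1, sep_subset _ _,
      by rw [i0]; exact b2 0 a (hA a ha).1, by rw [i0]; exact iA a ha, (hψ a ha).1, (hψ a ha).2.1⟩)
    (fun a ha a' ha' hne => ⟨dA a ha a' ha' hne,
      disjoint_left.2 fun y hy hy' => hne (hy.2.symm.trans hy'.2)⟩)
  have fA : ∀ a ∈ s, Φ₁.toFun '' A a = {y ∈ Icc lo hi | y 0 = a} := fun a ha => by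
    obtain ⟨χ, hχ⟩ := (hψ a ha).2.1
    rw [(e2 a ha).image_eq, ← hχ.image_eq, χ.image_eq]
  have fB : Φ₁.toFun '' B = frontier (Icc lo hi) := by rw [e1.image_eq, φ.image_eq]
  have fW : ∀ b ∈ t, Φ₁.toFun '' (W b ∩ B) = Φ₁.toFun '' W b ∩ frontier (Icc lo hi) := fun b hb => by
    rw [Φ₁.injOn.image_inter (hW b hb).2.1 hC.1, fB]
  have fW' : ∀ b ∈ t, Φ₁.toFun '' W b ∩ frontier (Icc lo hi) =
      {y ∈ frontier (Icc lo hi) | y 1 = b} := fun b hb => by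
    rw [← fW b hb, (e1.mono inter_subset_right).image_eq, iW b hb]
  have fL : ∀ a ∈ s, ∀ b ∈ t, {x ∈ Φ₁.toFun '' W b | x 0 = a} =
      {y ∈ Icc lo hi | y 0 = a ∧ y 1 = b} := fun a ha b hb => by
    rw [← (hψ a ha).2.2 b hb, ← ((e2 a ha).mono inter_subset_left).image_eq,
      Φ₁.injOn.image_inter (hA a ha).2.1 (hW b hb).2.1, fA a ha]
    exact Set.ext fun y => ⟨fun h => ⟨⟨(Φ₁.mapsTo.mono_left (hW b hb).2.1).image_subset h.1, h.2⟩,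
      h.1⟩, fun h => ⟨h.2, h.1.2⟩⟩
  have hle : lo ≤ hi := fun i => (hlt i).le
  have cor : ∀ b ∈ t, ∀ c : ℝ, c = lo 0 ∨ c = hi 0 →
      (![c, b, lo 2] : E3) ∈ Φ₁.toFun '' W b ∩ frontier (Icc lo hi) := by
    intro b hb c hc
    rw [fW' b hb]
    have hc' : c ∈ Icc (lo 0) (hi 0) := by
      rcases hc with rfl | rfl
      exacts [left_mem_Icc.2 (hle 0), right_mem_Icc.2 (hle 0)]
    refine ⟨(bF _).2 ⟨⟨fun i => ?_, fun i => ?_⟩, 0, hc⟩, rfl⟩ <;> fin_cases i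
    exacts [hc'.1, (hW b hb).1.1.le, le_rfl, hc'.2, (hW b hb).1.2.le, hle 2]
  obtain ⟨Φ₂, g1, g2, g3⟩ := h3 s t (u := fun y : E3 => y 0) (fun b => Φ₁.toFun '' W b)
    (fun b => {y ∈ Icc lo hi | y 1 = b}) b3 (continuous_apply 0).continuousOn
    (fun a ha => ⟨b2 0 a (hA a ha).1, ⟨lo, left_mem_Icc.2 hle, (hA a ha).1.1⟩,
      hi, right_mem_Icc.2 hle, (hA a ha).1.2⟩)
    (fun b hb => ⟨(Φ₁.mapsTo.mono_left (hW b hb).2.1).image_subset,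
      by rw [← fW b hb]; exact (hW b hb).2.2.1.image Φ₁ (hW b hb).2.1, sep_subset _ _,
      by rw [i0]; exact b2 1 b (hW b hb).1, by rw [i0, fW' b hb], fun a ha =>
      ⟨(fL a ha b hb).trans (Set.ext fun y => ⟨fun h => ⟨⟨h.1, h.2.2⟩, h.2.1⟩,
        fun h => ⟨h.1.1, h.2, h.1.2⟩⟩), by
        rw [fL a ha b hb, fW' b hb]
        convert bL a ha b hb using 1
        exact Set.ext fun y => ⟨fun h => ⟨h.1.1, h.2, h.1.2⟩, fun h => ⟨⟨h.1, h.2.2⟩, h.2.1⟩⟩,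
        ⟨_, cor b hb _ (Or.inl rfl), (hA a ha).1.1⟩, _, cor b hb _ (Or.inr rfl), (hA a ha).1.2⟩⟩)
    (fun b hb b' hb' hne => ⟨(disjoint_image_image fun x hx x' hx' e => disjoint_left.1
        (dW b hb b' hb' hne) hx (Φ₁.injOn ((hW b hb).2.1 hx) ((hW b' hb').2.1 hx') e ▸ hx')),
      disjoint_left.2 fun y hy hy' => hne (hy.2.symm.trans hy'.2)⟩)
  refine ⟨Φ₁.trans Φ₂, fun x hx => ?_, fun a ha => ?_, fun b hb => ?_⟩
  · change Φ₂.toFun (Φ₁.toFun x) = _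
    rw [e1 hx, g1 _ (φ.mapsTo hx)]
  · rw [ConHomeo.trans_toFun, image_comp, fA a ha]
    exact (image_congr fun y hy => g2 y hy.1 (by rw [hy.2]; exact ha)).trans (image_id' _)
  · rw [ConHomeo.trans_toFun, image_comp, g3 b hb]

end P073.Cut
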