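import Vale.Agent.P073Y.Cut.Sk

/-!
# Moving one family of walls onto another one, keeping levels of a function fixed
-/

open Set Metric Topology Filter

namespace P073.Cut

namespace KeepAux

variable {E : Type} [NormedAddCommGroup E] [NormedSpace ℝ E]

theorem ne {n : ℕ} {C B : Set E} (h : ConBall n C B) : C.Nonempty := by
  obtain ⟨-, φ, -⟩ := h
  exact ⟨_, φ.mapsTo_inv (mem_closedBall_self zero_le_one)⟩

/-- the case without levels -/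
theorem base (h3 : ONE 2) {κ : Type} (t : Finset κ) {C B : Set E} (W W' : κ → Set E)
    (hC : ConBall 3 C B)
    (hW : ∀ j ∈ t, W j ⊆ C ∧ ConBall 2 (W j) (W j ∩ B) ∧ W' j ⊆ C ∧ ConBall 2 (W' j) (W' j ∩ B) ∧
      W j ∩ B = W' j ∩ B)
    (hd : ∀ i ∈ t, ∀ j ∈ t, i ≠ j → Disjoint (W i) (W j) ∧ Disjoint (W' i) (W' j)) :
    ∃ Φ : ConHomeo C C, (∀ x ∈ B, Φ.toFun x = x) ∧ ∀ j ∈ t, Φ.toFun '' W j = W' j := by
  have ex : ∀ j ∈ t, ∃ f : E → E, EqOn f (fun x => x) (W j ∩ B) ∧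
      ∃ χ : ConHomeo (W j) (W' j), EqOn χ.toFun f (W j) := by
    intro j hj
    obtain ⟨-, b1, -, b2, e⟩ := hW j hj
    obtain ⟨χ, hχ, -⟩ := b1.exists_extend b2 ((ConHomeo.refl b1.conicalSet_bdry).cast rfl e)
    exact ⟨χ.toFun, hχ, χ, fun _ _ => rfl⟩
  choose! ψ hψ using ex
  obtain ⟨Φ, e1, e2⟩ := h3 t (ConHomeo.refl hC.conicalSet_bdry) W W' ψ hC hC (fun j hj => by
    obtain ⟨s1, b1, s2, b2, e⟩ := hW j hj
    exact ⟨s1, b1, s2, b2, (image_id' _).trans e, (hψ j hj).1, (hψ j hj).2⟩) hd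
  refine ⟨Φ, fun x hx => e1 hx, fun j hj => ?_⟩
  obtain ⟨χ, hχ⟩ := (hψ j hj).2
  rw [(e2 j hj).image_eq, ← hχ.image_eq, χ.image_eq]

omit [NormedAddCommGroup E] [NormedSpace ℝ E] in
theorem inter_le {C B V : Set E} {u : E → ℝ} {a : ℝ} (hV : V ⊆ C) :
    {x ∈ V | u x ≤ a} ∩ ({x ∈ C | u x = a} ∪ {x ∈ B | u x ≤ a}) =
      {x ∈ V | u x = a} ∪ {x ∈ V ∩ B | u x ≤ a} := by
  ext x
  constructor
  · rintro ⟨⟨h1, h2⟩, h3 | h3⟩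
    exacts [Or.inl ⟨h1, h3.2⟩, Or.inr ⟨⟨h1, h3.1⟩, h2⟩]
  · rintro (h | h)
    exacts [⟨⟨h.1, h.2.le⟩, Or.inl ⟨hV h.1, h.2⟩⟩, ⟨⟨h.1.1, h.2⟩, Or.inr ⟨h.1.2, h.2⟩⟩]

omit [NormedAddCommGroup E] [NormedSpace ℝ E] in
theorem inter_ge {C B V : Set E} {u : E → ℝ} {a : ℝ} (hV : V ⊆ C) :
    {x ∈ V | a ≤ u x} ∩ ({x ∈ C | u x = a} ∪ {x ∈ B | a ≤ u x}) =
      {x ∈ V | u x = a} ∪ {x ∈ V ∩ B | a ≤ u x} := by
  ext x
  constructor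
  · rintro ⟨⟨h1, h2⟩, h3 | h3⟩
    exacts [Or.inl ⟨h1, h3.2⟩, Or.inr ⟨⟨h1, h3.1⟩, h2⟩]
  · rintro (h | h)
    exacts [⟨⟨h.1, h.2.ge⟩, Or.inl ⟨hV h.1, h.2⟩⟩, ⟨⟨h.1.1, h.2⟩, Or.inr ⟨h.1.2, h.2⟩⟩]

/-- the two halves of a wall are walls of the two halves of the ball -/
theorem wall (h1 : SIDE 1) {C B V : Set E} {u : E → ℝ} {a : ℝ} (hV : V ⊆ C)
    (hu : ContinuousOn u C) (hb : ConBall 2 V (V ∩ B))
    (hl : ConBall 1 {x ∈ V | u x = a} {x ∈ V ∩ B | u x = a})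
    (lt : ∃ x ∈ V ∩ B, u x < a) (gt : ∃ x ∈ V ∩ B, a < u x) :
    ConBall 2 {x ∈ V | u x ≤ a} ({x ∈ V | u x ≤ a} ∩ ({x ∈ C | u x = a} ∪ {x ∈ B | u x ≤ a})) ∧
    ConBall 2 {x ∈ V | a ≤ u x} ({x ∈ V | a ≤ u x} ∩ ({x ∈ C | u x = a} ∪ {x ∈ B | a ≤ u x})) := by
  rw [inter_le hV, inter_ge hV]
  obtain ⟨p, hp, hp'⟩ := lt
  obtain ⟨q, hq, hq'⟩ := gt
  exact h1 hb (hu.mono hV) hl ⟨p, hp.1, hp'⟩ ⟨q, hq.1, hq'⟩

omit [NormedAddCommGroup E] [NormedSpace ℝ E] in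
theorem lev {V : Set E} {u : E → ℝ} {a b : ℝ} (h : b < a) :
    {x ∈ {x ∈ V | u x ≤ a} | u x = b} = {x ∈ V | u x = b} := by
  ext x
  exact ⟨fun hx => ⟨hx.1.1, hx.2⟩, fun hx => ⟨⟨hx.1, hx.2.trans_le h.le⟩, hx.2⟩⟩

omit [NormedAddCommGroup E] [NormedSpace ℝ E] in
theorem lev' {V B : Set E} {u : E → ℝ} {a b : ℝ} (h : b < a) :
    {x ∈ {x ∈ V | u x = a} ∪ {x ∈ B | u x ≤ a} | u x = b} = {x ∈ B | u x = b} := by
  ext x
  constructor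
  · rintro ⟨h1 | h1, h2⟩
    · exact absurd (h2.symm.trans h1.2) h.ne
    · exact ⟨h1.1, h2⟩
  · exact fun hx => ⟨Or.inr ⟨hx.1, hx.2.trans_le h.le⟩, hx.2⟩

omit [NormedAddCommGroup E] [NormedSpace ℝ E] in
theorem split (V : Set E) (u : E → ℝ) (a : ℝ) : {x ∈ V | u x ≤ a} ∪ {x ∈ V | a ≤ u x} = V := by
  ext x
  constructor
  · rintro (h | h) <;> exact h.1
  · intro h
    rcases le_total (u x) a with h' | h'
    exacts [Or.inl ⟨h, h'⟩, Or.inr ⟨h, h'⟩]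

end KeepAux

open KeepAux

theorem keep_of (h1 : SIDE 1) (h2 : SIDE 2) (h3 : ONE 2) : KEEP := by
  intro E _ _ κ s t C B u W W'
  induction s using Finset.induction_on_max generalizing C B W W' with
  | empty =>
    intro hC _ _ hW hd
    obtain ⟨Φ, e1, e2⟩ := base h3 t W W' hC (fun j hj => by
      obtain ⟨s1, b1, s2, b2, e, -⟩ := hW j hj
      exact ⟨s1, b1, s2, b2, e⟩) hd
    exact ⟨Φ, e1, fun x _ hx => absurd hx (Finset.notMem_empty _), e2⟩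
  | insert a s hmax ih =>
    intro hC hu hs hW hd
    have ha : a ∈ insert a s := Finset.mem_insert_self a s
    obtain ⟨la, lt, gt⟩ := hs a ha
    obtain ⟨c1, c2⟩ := h2 hC hu la lt gt
    have wl : ∀ j ∈ t,
        (ConBall 2 {x ∈ W j | u x ≤ a}
            ({x ∈ W j | u x ≤ a} ∩ ({x ∈ C | u x = a} ∪ {x ∈ B | u x ≤ a})) ∧
          ConBall 2 {x ∈ W j | a ≤ u x}
            ({x ∈ W j | a ≤ u x} ∩ ({x ∈ C | u x = a} ∪ {x ∈ B | a ≤ u x}))) ∧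
        (ConBall 2 {x ∈ W' j | u x ≤ a}
            ({x ∈ W' j | u x ≤ a} ∩ ({x ∈ C | u x = a} ∪ {x ∈ B | u x ≤ a})) ∧
          ConBall 2 {x ∈ W' j | a ≤ u x}
            ({x ∈ W' j | a ≤ u x} ∩ ({x ∈ C | u x = a} ∪ {x ∈ B | a ≤ u x}))) := by
      intro j hj
      obtain ⟨s1, b1, s2, b2, e, hl⟩ := hW j hj
      obtain ⟨e', l1, p1, p2⟩ := hl a ha
      exact ⟨wall h1 s1 hu b1 l1 p1 p2, wall h1 s2 hu b2 (e ▸ e' ▸ l1) (e ▸ p1) (e ▸ p2)⟩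
    obtain ⟨Φ₁, f1, g1, k1⟩ := ih (C := {x ∈ C | u x ≤ a})
      (B := {x ∈ C | u x = a} ∪ {x ∈ B | u x ≤ a}) (fun j => {x ∈ W j | u x ≤ a})
      (fun j => {x ∈ W' j | u x ≤ a}) c1 (hu.mono fun x hx => hx.1)
      (fun b hb => by
        have hba := hmax b hb
        obtain ⟨lb, ⟨p, hp, hp'⟩, -⟩ := hs b (Finset.mem_insert_of_mem hb)
        obtain ⟨q, hq, hq'⟩ := ne la
        rw [lev hba, lev' hba]
        exact ⟨lb, ⟨p, ⟨hp, (hp'.trans hba).le⟩, hp'⟩, q, ⟨hq, hq'.le⟩, hba.trans_eq hq'.symm⟩)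
      (fun j hj => by
        obtain ⟨s1, b1, s2, b2, e, hl⟩ := hW j hj
        obtain ⟨e', l1, -, -⟩ := hl a ha
        refine ⟨fun x hx => ⟨s1 hx.1, hx.2⟩, (wl j hj).1.1, fun x hx => ⟨s2 hx.1, hx.2⟩,
          (wl j hj).2.1, by rw [inter_le s1, inter_le s2, e, e'], fun b hb => ?_⟩
        have hba := hmax b hb
        obtain ⟨eb, lb, ⟨p, hp, hp'⟩, -⟩ := hl b (Finset.mem_insert_of_mem hb)
        obtain ⟨q, hq, hq'⟩ := ne l1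
        rw [inter_le s1, lev hba, lev hba, lev' hba]
        exact ⟨eb, lb, ⟨p, Or.inr ⟨hp, (hp'.trans hba).le⟩, hp'⟩, q, Or.inl ⟨hq, hq'⟩,
          hba.trans_eq hq'.symm⟩)
      (fun i hi j hj hij => ⟨(hd i hi j hj hij).1.mono (sep_subset _ _) (sep_subset _ _),
        (hd i hi j hj hij).2.mono (sep_subset _ _) (sep_subset _ _)⟩)
    obtain ⟨Φ₂, f2, k2⟩ := base h3 t (fun j => {x ∈ W j | a ≤ u x})
      (fun j => {x ∈ W' j | a ≤ u x}) c2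
      (fun j hj => by
        obtain ⟨s1, b1, s2, b2, e, hl⟩ := hW j hj
        obtain ⟨e', -, -, -⟩ := hl a ha
        exact ⟨fun x hx => ⟨s1 hx.1, hx.2⟩, (wl j hj).1.2, fun x hx => ⟨s2 hx.1, hx.2⟩,
          (wl j hj).2.2, by rw [inter_ge s1, inter_ge s2, e, e']⟩)
      (fun i hi j hj hij => ⟨(hd i hi j hj hij).1.mono (sep_subset _ _) (sep_subset _ _),
        (hd i hi j hj hij).2.mono (sep_subset _ _) (sep_subset _ _)⟩)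
    have m : ∀ x ∈ {x ∈ C | u x ≤ a} ∩ {x ∈ C | a ≤ u x}, x ∈ {x ∈ C | u x = a} :=
      fun x hx => ⟨hx.1.1, le_antisymm hx.1.2 hx.2.2⟩
    have ag : EqOn Φ₁.toFun Φ₂.toFun ({x ∈ C | u x ≤ a} ∩ {x ∈ C | a ≤ u x}) := fun x hx =>
      (f1 x (Or.inl (m x hx))).trans (f2 x (Or.inl (m x hx))).symm
    have im : {x ∈ C | u x ≤ a} ∩ {x ∈ C | a ≤ u x} ⊆
        Φ₁.toFun '' ({x ∈ C | u x ≤ a} ∩ {x ∈ C | a ≤ u x}) := fun x hx =>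
      ⟨x, hx, f1 x (Or.inl (m x hx))⟩
    have gl := ConHomeo.glue_left Φ₁ Φ₂ c1.isClosed c2.isClosed c1.isClosed c2.isClosed ag im
    have gr := ConHomeo.glue_right Φ₁ Φ₂ c1.isClosed c2.isClosed c1.isClosed c2.isClosed ag im
    refine ⟨(Φ₁.glue Φ₂ c1.isClosed c2.isClosed c1.isClosed c2.isClosed ag im).cast
      (split C u a) (split C u a), fun x hx => ?_, fun x hx hxs => ?_, fun j hj => ?_⟩
    · rcases le_total (u x) a with h | h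
      · exact (gl ⟨hC.1 hx, h⟩).trans (f1 x (Or.inr ⟨hx, h⟩))
      · exact (gr ⟨hC.1 hx, h⟩).trans (f2 x (Or.inr ⟨hx, h⟩))
    · rcases Finset.mem_insert.1 hxs with h | h
      · exact (gl ⟨hx, h.le⟩).trans (f1 x (Or.inl ⟨hx, h⟩))
      · exact (gl ⟨hx, (hmax _ h).le⟩).trans (g1 x ⟨hx, (hmax _ h).le⟩ h)
    · have s1 := (hW j hj).1
      have t1 : {x ∈ W j | u x ≤ a} ⊆ {x ∈ C | u x ≤ a} := fun x hx => ⟨s1 hx.1, hx.2⟩
      have t2 : {x ∈ W j | a ≤ u x} ⊆ {x ∈ C | a ≤ u x} := fun x hx => ⟨s1 hx.1, hx.2⟩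
      rw [ConHomeo.cast_toFun, ← split (W j) u a, image_union, (gl.mono t1).image_eq,
        (gr.mono t2).image_eq, k1 j hj, k2 j hj, split]

end P073.Cut
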