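import Vale.Agent.P073Y.Cut.Sk
import Vale.Agent.P073Z.DISC2.Path

/-!
# Cutting along a level; extension with prescribed values on disjoint walls
-/

open Set Metric Topology Filter

namespace P073.Cut

section aux

variable {E F : Type} [NormedAddCommGroup E] [NormedSpace ℝ E]
  [NormedAddCommGroup F] [NormedSpace ℝ F]

theorem bdry_nonempty {n : ℕ} {C B : Set E} (h : ConBall (n + 1) C B) : B.Nonempty := by
  obtain ⟨-, φ, hφ⟩ := h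
  have h1 : (sphere (0 : Fin (n + 1) → ℝ) 1).Nonempty := NormedSpace.sphere_nonempty.2 zero_le_one
  rw [← hφ] at h1
  exact h1.of_image

theorem preconn_diff {n : ℕ} {C B D : Set E} (h : ConBall n C B) (hD : D ⊆ B) :
    IsPreconnected (C \ D) :=
  h.isConnected_int.isPreconnected.subset_closure (fun _ hx => ⟨hx.1, fun h' => hx.2 (hD h')⟩)
    (fun _ hx => h.subset_closure_int hx.1)

omit [NormedSpace ℝ E] in
theorem sub_or {P U V : Set E} (hP : IsPreconnected P) (hU : IsClosed U) (hV : IsClosed V)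
    (h : P ⊆ U ∪ V) (hd : ∀ x ∈ P, x ∉ U ∩ V) : P ⊆ U ∨ P ⊆ V :=
  isPreconnected_iff_subset_of_disjoint_closed.1 hP U V hU hV h
    (eq_empty_of_forall_notMem fun x hx => hd x hx.1 hx.2)

omit [NormedSpace ℝ E] in
theorem sign_const {P : Set E} {u : E → ℝ} {a : ℝ} (hP : IsPreconnected P)
    (hu : ContinuousOn u P) (hne : ∀ x ∈ P, u x ≠ a) {x y : E} (hx : x ∈ P) (hy : y ∈ P)
    (h : u x < a) : u y < a := by
  by_contra h1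
  obtain ⟨z, hz, hz2⟩ := hP.intermediate_value hx hy hu ⟨h.le, not_lt.1 h1⟩
  exact hne z hz hz2

theorem side_key {n : ℕ} {C B C₁ C₂ : Set E} {u : E → ℝ} {a : ℝ} (hBC : B ⊆ C)
    (hu : ContinuousOn u C) (h₁ : ConBall n C₁ ({x ∈ C | u x = a} ∪ C₁ ∩ B))
    (h₂ : ConBall n C₂ ({x ∈ C | u x = a} ∪ C₂ ∩ B)) (hU : C₁ ∪ C₂ = C)
    (hI : C₁ ∩ C₂ = {x ∈ C | u x = a}) {x y : E} (hx : x ∈ C₁) (hxa : u x < a) (hy : y ∈ C₂)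
    (hya : a < u y) :
    ConBall n {x ∈ C | u x ≤ a} ({x ∈ C | u x = a} ∪ {x ∈ B | u x ≤ a}) ∧
    ConBall n {x ∈ C | a ≤ u x} ({x ∈ C | u x = a} ∪ {x ∈ B | a ≤ u x}) := by
  have s₁ : C₁ ⊆ C := hU ▸ subset_union_left
  have s₂ : C₂ ⊆ C := hU ▸ subset_union_right
  have p₁ := preconn_diff h₁ subset_union_left
  have p₂ := preconn_diff h₂ subset_union_left
  have l₁ : ∀ z ∈ C₁, u z ≤ a := by
    intro z hz
    by_cases hza : u z = a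
    · exact hza.le
    · exact (sign_const p₁ (hu.mono fun _ h => s₁ h.1) (fun w hw h => hw.2 ⟨s₁ hw.1, h⟩)
        ⟨hx, fun h => hxa.ne h.2⟩ ⟨hz, fun h => hza h.2⟩ hxa).le
  have l₂ : ∀ z ∈ C₂, a ≤ u z := by
    intro z hz
    by_contra hza
    have hza' : u z < a := not_le.1 hza
    exact absurd (sign_const p₂ (hu.mono fun _ h => s₂ h.1) (fun w hw h => hw.2 ⟨s₂ hw.1, h⟩)
      ⟨hz, fun h => hza'.ne h.2⟩ ⟨hy, fun h => hya.ne' h.2⟩ hza') (not_lt.2 hya.le)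
  have e₁ : C₁ = {x ∈ C | u x ≤ a} := by
    refine Subset.antisymm (fun z hz => ⟨s₁ hz, l₁ z hz⟩) fun z hz => ?_
    rcases (hU ▸ hz.1 : z ∈ C₁ ∪ C₂) with h | h
    · exact h
    · exact (hI ▸ (⟨hz.1, le_antisymm hz.2 (l₂ z h)⟩ : z ∈ {x ∈ C | u x = a}) : z ∈ C₁ ∩ C₂).1
  have e₂ : C₂ = {x ∈ C | a ≤ u x} := by
    refine Subset.antisymm (fun z hz => ⟨s₂ hz, l₂ z hz⟩) fun z hz => ?_
    rcases (hU ▸ hz.1 : z ∈ C₁ ∪ C₂) with h | h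
    · exact (hI ▸ (⟨hz.1, le_antisymm (l₁ z h) hz.2⟩ : z ∈ {x ∈ C | u x = a}) : z ∈ C₁ ∩ C₂).2
    · exact h
  have b₁ : C₁ ∩ B = {x ∈ B | u x ≤ a} := by
    rw [e₁]
    exact Subset.antisymm (fun z hz => ⟨hz.2, hz.1.2⟩) fun z hz => ⟨⟨hBC hz.1, hz.2⟩, hz.1⟩
  have b₂ : C₂ ∩ B = {x ∈ B | a ≤ u x} := by
    rw [e₂]
    exact Subset.antisymm (fun z hz => ⟨hz.2, hz.1.2⟩) fun z hz => ⟨⟨hBC hz.1, hz.2⟩, hz.1⟩
  rw [b₁, e₁] at h₁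
  rw [b₂, e₂] at h₂
  exact ⟨h₁, h₂⟩

/-- the image of one half of the boundary is one half of the other boundary -/
theorem img_half {B B₁ B₂ J : Set E} {B' B₁' B₂' J' : Set F} (φ : ConHomeo B B')
    (hU : B₁ ∪ B₂ = B) (hI : B₁ ∩ B₂ = J) (hU' : B₁' ∪ B₂' = B') (hI' : B₁' ∩ B₂' = J')
    (hJ : φ.toFun '' J = J') (m₁ : φ.toFun '' (B₁ \ J) ⊆ B₁') (m₂ : φ.toFun '' (B₂ \ J) ⊆ B₂') :
    φ.toFun '' B₁ = B₁' := by
  have sJ : J ⊆ B₁ := hI ▸ inter_subset_left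
  have sJ' : J' ⊆ B₁' := hI' ▸ inter_subset_left
  have s₁ : B₁ ⊆ B := hU ▸ subset_union_left
  have s₁' : B₁' ⊆ B' := hU' ▸ subset_union_left
  refine Subset.antisymm ?_ fun y hy => ?_
  · rintro _ ⟨x, hx, rfl⟩
    by_cases hxJ : x ∈ J
    · exact sJ' (hJ ▸ mem_image_of_mem _ hxJ)
    · exact m₁ (mem_image_of_mem _ ⟨hx, hxJ⟩)
  · have hx : φ.invFun y ∈ B := φ.mapsTo_inv (s₁' hy)
    have hxy : φ.toFun (φ.invFun y) = y := φ.right_inv (s₁' hy)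
    by_cases h1 : φ.invFun y ∈ B₁
    · exact ⟨_, h1, hxy⟩
    · have h2 : φ.invFun y ∈ B₂ := (hU ▸ hx : φ.invFun y ∈ B₁ ∪ B₂).resolve_left h1
      have h3 : y ∈ B₂' := hxy ▸ m₂ (mem_image_of_mem _ ⟨h2, fun h => h1 (sJ h)⟩)
      have h4 : y ∈ φ.toFun '' J := hJ ▸ (hI' ▸ (⟨hy, h3⟩ : y ∈ B₁' ∩ B₂') : y ∈ J')
      exact image_mono sJ h4

/-- the halves of the two boundaries correspond to each other -/
theorem match_halves {n : ℕ} {B B₁ B₂ J : Set E} {B' B₁' B₂' J' : Set F} (φ : ConHomeo B B')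
    (h₁ : ConBall n B₁ J) (h₂ : ConBall n B₂ J) (h₁' : ConBall n B₁' J') (h₂' : ConBall n B₂' J')
    (hU : B₁ ∪ B₂ = B) (hI : B₁ ∩ B₂ = J) (hU' : B₁' ∪ B₂' = B') (hI' : B₁' ∩ B₂' = J')
    (hJ : φ.toFun '' J = J') :
    (φ.toFun '' B₁ = B₁' ∧ φ.toFun '' B₂ = B₂') ∨ (φ.toFun '' B₁ = B₂' ∧ φ.toFun '' B₂ = B₁') := by
  have s₁ : B₁ ⊆ B := hU ▸ subset_union_left
  have s₂ : B₂ ⊆ B := hU ▸ subset_union_right
  have alt : ∀ {A : Set E}, ConBall n A J → A ⊆ B →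
      φ.toFun '' (A \ J) ⊆ B₁' ∨ φ.toFun '' (A \ J) ⊆ B₂' := by
    intro A hA hAB
    refine sub_or (hA.isConnected_int.isPreconnected.image _
      (φ.cont.mono fun _ h => hAB h.1)) h₁'.isClosed h₂'.isClosed ?_ ?_
    · rintro _ ⟨x, hx, rfl⟩
      exact hU' ▸ φ.mapsTo (hAB hx.1)
    · rintro _ ⟨x, hx, rfl⟩ h
      rw [hI', ← hJ] at h
      obtain ⟨z, hz, hzx⟩ := h
      exact hx.2 (φ.injOn (hAB (hA.1 hz)) (hAB hx.1) hzx ▸ hz)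
  have nos : ∀ {P Q : Set F}, ConBall n Q J' → Q ⊆ B' → P ∩ Q = J' →
      φ.toFun '' (B₁ \ J) ⊆ P → φ.toFun '' (B₂ \ J) ⊆ P → False := by
    intro P Q hQ hQB hPQ m₁ m₂
    obtain ⟨y, hy, hyJ⟩ := hQ.isConnected_int.nonempty
    have hx : φ.invFun y ∈ B := φ.mapsTo_inv (hQB hy)
    have hxy : φ.toFun (φ.invFun y) = y := φ.right_inv (hQB hy)
    have hxJ : φ.invFun y ∉ J := fun h => hyJ (hJ ▸ ⟨_, h, hxy⟩)
    have hP : y ∈ P := by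
      rcases (hU ▸ hx : φ.invFun y ∈ B₁ ∪ B₂) with h | h
      · exact hxy ▸ m₁ (mem_image_of_mem _ ⟨h, hxJ⟩)
      · exact hxy ▸ m₂ (mem_image_of_mem _ ⟨h, hxJ⟩)
    exact hyJ (hPQ ▸ ⟨hP, hy⟩)
  have U2 : B₂ ∪ B₁ = B := by rw [union_comm, hU]
  have I2 : B₂ ∩ B₁ = J := by rw [inter_comm, hI]
  have U2' : B₂' ∪ B₁' = B' := by rw [union_comm, hU']
  have I2' : B₂' ∩ B₁' = J' := by rw [inter_comm, hI']
  rcases alt h₁ s₁ with m₁ | m₁ <;> rcases alt h₂ s₂ with m₂ | m₂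
  · exact (nos h₂' (hU' ▸ subset_union_right) hI' m₁ m₂).elim
  · exact Or.inl ⟨img_half φ hU hI hU' hI' hJ m₁ m₂, img_half φ U2 I2 U2' I2' hJ m₂ m₁⟩
  · exact Or.inr ⟨img_half φ hU hI U2' I2' hJ m₁ m₂, img_half φ U2 I2 hU' hI' hJ m₂ m₁⟩
  · exact (nos h₁' (hU' ▸ subset_union_left) I2' m₁ m₂).elim

/-- the boundary map of one piece -/
theorem bd_map {n : ℕ} {B P D : Set E} {B' P' D' : Set F} (φ : ConHomeo B B')
    (χ : ConHomeo D D') (hD : IsClosed D) (hD' : IsClosed D') (hP : ConBall n (P ∩ B) (D ∩ B))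
    (hP' : ConBall n (P' ∩ B') (D' ∩ B')) (hi : φ.toFun '' (P ∩ B) = P' ∩ B')
    (hJ : φ.toFun '' (D ∩ B) = D' ∩ B') (he : EqOn χ.toFun φ.toFun (D ∩ B)) :
    ∃ θ : ConHomeo (D ∪ P ∩ B) (D' ∪ P' ∩ B'), EqOn θ.toFun χ.toFun D ∧
      EqOn θ.toFun φ.toFun (P ∩ B) := by
  let ρ : ConHomeo (P ∩ B) (P' ∩ B') := (φ.restr hP.conicalSet inter_subset_right).cast rfl hi
  have hag : EqOn χ.toFun ρ.toFun (D ∩ (P ∩ B)) := fun x hx => he ⟨hx.1, hx.2.2⟩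
  have himg : D' ∩ (P' ∩ B') ⊆ χ.toFun '' (D ∩ (P ∩ B)) := by
    intro y hy
    obtain ⟨x, hx, hxy⟩ := (hJ ▸ (⟨hy.1, hy.2.2⟩ : y ∈ D' ∩ B') : y ∈ φ.toFun '' (D ∩ B))
    exact ⟨x, ⟨hx.1, hP.1 hx⟩, (he hx).trans hxy⟩
  exact ⟨χ.glue ρ hD hP.isClosed hD' hP'.isClosed hag himg,
    ConHomeo.glue_left _ _ _ _ _ _ _ _, ConHomeo.glue_right _ _ _ _ _ _ _ _⟩

/-- the data of the extension problem -/
def Walls (n : ℕ) {ι : Type} (s : Finset ι) {B : Set E} {B' : Set F} (C : Set E) (C' : Set F)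
    (φ : ConHomeo B B') (D : ι → Set E) (D' : ι → Set F) (ψ : ι → E → F) : Prop :=
  ∀ i ∈ s, D i ⊆ C ∧ ConBall n (D i) (D i ∩ B) ∧ D' i ⊆ C' ∧ ConBall n (D' i) (D' i ∩ B') ∧
    φ.toFun '' (D i ∩ B) = D' i ∩ B' ∧ EqOn (ψ i) φ.toFun (D i ∩ B) ∧
    ∃ χ : ConHomeo (D i) (D' i), EqOn χ.toFun (ψ i) (D i)

/-- walls inside one piece -/
theorem walls_piece {n : ℕ} {ι : Type} {s t : Finset ι} {C B P D₀ : Set E}
    {C' B' P' Q' D₀' : Set F} {φ : ConHomeo B B'} {D : ι → Set E} {D' : ι → Set F}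
    {ψ : ι → E → F} (hW : Walls (n + 1) s C C' φ D D' ψ) (hts : t ⊆ s)
    (θ : ConHomeo (D₀ ∪ P ∩ B) (D₀' ∪ P' ∩ B')) (hθ : EqOn θ.toFun φ.toFun (P ∩ B))
    (hi : φ.toFun '' (P ∩ B) = P' ∩ B') (hP' : IsClosed P') (hQ' : IsClosed Q')
    (hU' : P' ∪ Q' = C') (hI' : P' ∩ Q' = D₀')
    (ht : ∀ j ∈ t, D j ⊆ P ∧ Disjoint D₀ (D j) ∧ Disjoint D₀' (D' j)) :
    Walls (n + 1) t P P' θ D D' ψ := by
  intro j hj
  obtain ⟨-, a₂, a₃, a₄, a₅, a₆, a₇⟩ := hW j (hts hj)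
  obtain ⟨b₁, b₂, b₃⟩ := ht j hj
  have c₁ : D' j ⊆ P' := by
    rcases sub_or a₄.isConnected.isPreconnected hP' hQ' (hU' ▸ a₃)
      (fun y hy h => disjoint_left.1 b₃ (hI' ▸ h) hy) with h | h
    · exact h
    · obtain ⟨x, hx⟩ := bdry_nonempty a₂
      have h1 : φ.toFun x ∈ D' j ∩ B' := a₅ ▸ mem_image_of_mem _ hx
      have h2 : φ.toFun x ∈ P' ∩ B' := hi ▸ mem_image_of_mem _ ⟨b₁ hx.1, hx.2⟩
      exact (disjoint_left.1 b₃ (hI' ▸ (⟨h2.1, h h1.1⟩ : φ.toFun x ∈ P' ∩ Q')) h1.1).elim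
  have e : D j ∩ (D₀ ∪ P ∩ B) = D j ∩ B := by
    refine Subset.antisymm ?_ fun x hx => ⟨hx.1, Or.inr ⟨b₁ hx.1, hx.2⟩⟩
    rintro x ⟨hx, h | h⟩
    · exact (disjoint_left.1 b₂ h hx).elim
    · exact ⟨hx, h.2⟩
  have e' : D' j ∩ (D₀' ∪ P' ∩ B') = D' j ∩ B' := by
    refine Subset.antisymm ?_ fun x hx => ⟨hx.1, Or.inr ⟨c₁ hx.1, hx.2⟩⟩
    rintro x ⟨hx, h | h⟩
    · exact (disjoint_left.1 b₃ h hx).elim
    · exact ⟨hx, h.2⟩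
  have q : EqOn θ.toFun φ.toFun (D j ∩ B) := fun x hx => hθ ⟨b₁ hx.1, hx.2⟩
  rw [e, e']
  exact ⟨b₁, a₂, c₁, a₄, q.image_eq.trans a₅, fun x hx => (a₆ hx).trans (q hx).symm, a₇⟩

theorem one_aux {n : ℕ} (h : CUT (n + 1)) {ι : Type} (D : ι → Set E) (D' : ι → Set F)
    (ψ : ι → E → F) (s : Finset ι) : ∀ {C B : Set E} {C' B' : Set F} (φ : ConHomeo B B'),
    ConBall (n + 1 + 1) C B → ConBall (n + 1 + 1) C' B' → Walls (n + 1) s C C' φ D D' ψ →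
    (∀ i ∈ s, ∀ j ∈ s, i ≠ j → Disjoint (D i) (D j) ∧ Disjoint (D' i) (D' j)) →
    ∃ Φ : ConHomeo C C', EqOn Φ.toFun φ.toFun B ∧ ∀ i ∈ s, EqOn Φ.toFun (ψ i) (D i) := by
  classical
  induction s using Finset.strongInduction with
  | H s ih =>
  intro C B C' B' φ hC hC' hW hd
  rcases s.eq_empty_or_nonempty with rfl | ⟨i, hi⟩
  · obtain ⟨Φ, hΦ, -⟩ := hC.exists_extend hC' φ
    exact ⟨Φ, hΦ, fun i hi => absurd hi (Finset.notMem_empty i)⟩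
  obtain ⟨a₁, a₂, a₃, a₄, a₅, a₆, χ, hχ⟩ := hW i hi
  have he : EqOn χ.toFun φ.toFun (D i ∩ B) := fun x hx => (hχ hx.1).trans (a₆ hx)
  -- extension over one piece
  have piece : ∀ {P : Set E} {P' Q' : Set F}, ConBall (n + 1 + 1) P (D i ∪ P ∩ B) →
      ConBall (n + 1 + 1) P' (D' i ∪ P' ∩ B') → ConBall (n + 1) (P ∩ B) (D i ∩ B) →
      ConBall (n + 1) (P' ∩ B') (D' i ∩ B') → φ.toFun '' (P ∩ B) = P' ∩ B' → IsClosed Q' →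
      P' ∪ Q' = C' → P' ∩ Q' = D' i →
      ∃ Φ : ConHomeo P P', EqOn Φ.toFun χ.toFun (D i) ∧ EqOn Φ.toFun φ.toFun (P ∩ B) ∧
        ∀ j ∈ s, j ≠ i → D j ⊆ P → EqOn Φ.toFun (ψ j) (D j) := by
    intro P P' Q' k₁ k₂ k₃ k₄ k₅ k₆ k₇ k₈
    obtain ⟨θ, hθ₁, hθ₂⟩ := bd_map φ χ a₂.isClosed a₄.isClosed k₃ k₄ k₅ a₅ he
    have hsub : s.filter (fun j => j ≠ i ∧ D j ⊆ P) ⊆ s := Finset.filter_subset _ _
    have hss : s.filter (fun j => j ≠ i ∧ D j ⊆ P) ⊂ s :=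
      Finset.filter_ssubset.2 ⟨i, hi, fun h => h.1 rfl⟩
    obtain ⟨Φ, h1, h2⟩ := ih _ hss θ k₁ k₂
      (walls_piece hW hsub θ hθ₂ k₅ k₂.isClosed k₆ k₇ k₈ fun j hj => by
        obtain ⟨m₁, m₂, m₃⟩ := Finset.mem_filter.1 hj
        exact ⟨m₃, hd i hi j m₁ m₂.symm⟩)
      (fun j hj l hl => hd j (hsub hj) l (hsub hl))
    exact ⟨Φ, fun x hx => (h1 (Or.inl hx)).trans (hθ₁ hx),
      fun x hx => (h1 (Or.inr hx)).trans (hθ₂ hx),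
      fun j m₁ m₂ m₃ => h2 j (Finset.mem_filter.2 ⟨m₁, m₂, m₃⟩)⟩
  obtain ⟨C₁, C₂, c₁, c₂, c₃, c₄, cU, cI⟩ := h hC a₁ a₂
  have fin : ∀ {C₁' C₂' : Set F}, ConBall (n + 1 + 1) C₁' (D' i ∪ C₁' ∩ B') →
      ConBall (n + 1 + 1) C₂' (D' i ∪ C₂' ∩ B') → ConBall (n + 1) (C₁' ∩ B') (D' i ∩ B') →
      ConBall (n + 1) (C₂' ∩ B') (D' i ∩ B') → C₁' ∪ C₂' = C' → C₁' ∩ C₂' = D' i →
      φ.toFun '' (C₁ ∩ B) = C₁' ∩ B' → φ.toFun '' (C₂ ∩ B) = C₂' ∩ B' →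
      ∃ Φ : ConHomeo C C', EqOn Φ.toFun φ.toFun B ∧ ∀ i ∈ s, EqOn Φ.toFun (ψ i) (D i) := by
    intro C₁' C₂' d₁ d₂ d₃ d₄ dU dI m₁ m₂
    obtain ⟨Φ₁, p₁, p₂, p₃⟩ := piece c₁ d₁ c₃ d₃ m₁ d₂.isClosed dU dI
    obtain ⟨Φ₂, q₁, q₂, q₃⟩ := piece c₂ d₂ c₄ d₄ m₂ d₁.isClosed (by rw [union_comm, dU])
      (by rw [inter_comm, dI])
    have hag : EqOn Φ₁.toFun Φ₂.toFun (C₁ ∩ C₂) := by
      rw [cI]; exact fun x hx => (p₁ hx).trans (q₁ hx).symm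
    have himg : C₁' ∩ C₂' ⊆ Φ₁.toFun '' (C₁ ∩ C₂) := by
      rw [cI, dI, p₁.image_eq, χ.image_eq]
    have gl := ConHomeo.glue_left Φ₁ Φ₂ c₁.isClosed c₂.isClosed d₁.isClosed d₂.isClosed hag himg
    have gr := ConHomeo.glue_right Φ₁ Φ₂ c₁.isClosed c₂.isClosed d₁.isClosed d₂.isClosed hag himg
    refine ⟨(Φ₁.glue Φ₂ c₁.isClosed c₂.isClosed d₁.isClosed d₂.isClosed hag himg).cast cU dU,
      fun x hx => ?_, fun j hj => ?_⟩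
    · rcases (cU ▸ hC.1 hx : x ∈ C₁ ∪ C₂) with h1 | h1
      · exact (gl h1).trans (p₂ ⟨h1, hx⟩)
      · exact (gr h1).trans (q₂ ⟨h1, hx⟩)
    · by_cases hji : j = i
      · subst hji
        exact fun x hx => (gl (cI ▸ hx : x ∈ C₁ ∩ C₂).1).trans ((p₁ hx).trans (hχ hx))
      · obtain ⟨r₁, r₂, -⟩ := hW j hj
        rcases sub_or r₂.isConnected.isPreconnected c₁.isClosed c₂.isClosed (cU ▸ r₁)
          (fun y hy h1 => disjoint_left.1 (hd j hj i hi hji).1 hy (cI ▸ h1)) with h1 | h1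
        · exact fun x hx => (gl (h1 hx)).trans (p₃ j hj hji h1 hx)
        · exact fun x hx => (gr (h1 hx)).trans (q₃ j hj hji h1 hx)
  obtain ⟨C₁', C₂', d₁, d₂, d₃, d₄, dU, dI⟩ := h hC' a₃ a₄
  have u₁ : C₁ ∩ B ∪ C₂ ∩ B = B := by
    rw [← union_inter_distrib_right, cU, inter_eq_right.2 hC.1]
  have u₂ : C₁ ∩ B ∩ (C₂ ∩ B) = D i ∩ B := by
    rw [← inter_inter_distrib_right, cI]
  have v₁ : C₁' ∩ B' ∪ C₂' ∩ B' = B' := by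
    rw [← union_inter_distrib_right, dU, inter_eq_right.2 hC'.1]
  have v₂ : C₁' ∩ B' ∩ (C₂' ∩ B') = D' i ∩ B' := by
    rw [← inter_inter_distrib_right, dI]
  rcases match_halves φ c₃ c₄ d₃ d₄ u₁ u₂ v₁ v₂ a₅ with ⟨m₁, m₂⟩ | ⟨m₁, m₂⟩
  · exact fin d₁ d₂ d₃ d₄ dU dI m₁ m₂
  · exact fin d₂ d₁ d₄ d₃ (by rw [union_comm, dU]) (by rw [inter_comm, dI]) m₁ m₂

end aux

theorem side_of {n : ℕ} (h : CUT n) : SIDE n := by
  intro E _ _ C B u a hC hu hD ⟨x, hx, hxa⟩ ⟨y, hy, hya⟩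
  have e : {x ∈ C | u x = a} ∩ B = {x ∈ B | u x = a} :=
    Subset.antisymm (fun z hz => ⟨hz.2, hz.1.2⟩) fun z hz => ⟨⟨hC.1 hz.1, hz.2⟩, hz.1⟩
  obtain ⟨C₁, C₂, c₁, c₂, -, -, cU, cI⟩ := h hC (D := {x ∈ C | u x = a}) (fun _ hz => hz.1)
    (e.symm ▸ hD)
  have same : ∀ {P : Set E}, ConBall (n + 1) P ({x ∈ C | u x = a} ∪ P ∩ B) → P ⊆ C → x ∈ P →
      y ∈ P → False := by
    intro P hP hPC h1 h2
    exact absurd (sign_const (preconn_diff hP subset_union_left) (hu.mono fun _ h => hPC h.1)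
      (fun w hw h => hw.2 ⟨hPC hw.1, h⟩) ⟨h1, fun h => hxa.ne h.2⟩ ⟨h2, fun h => hya.ne' h.2⟩ hxa)
      (not_lt.2 hya.le)
  rcases (cU ▸ hx : x ∈ C₁ ∪ C₂) with h1 | h1 <;> rcases (cU ▸ hy : y ∈ C₁ ∪ C₂) with h2 | h2
  · exact (same c₁ (cU ▸ subset_union_left) h1 h2).elim
  · exact side_key hC.1 hu c₁ c₂ cU cI h1 hxa h2 hya
  · exact side_key hC.1 hu c₂ c₁ (by rw [union_comm, cU]) (by rw [inter_comm, cI]) h1 hxa h2 hya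
  · exact (same c₂ (cU ▸ subset_union_right) h1 h2).elim

theorem one_of {n : ℕ} (h : CUT (n + 1)) : ONE (n + 1) := by
  intro E F _ _ _ _ ι s C B C' B' φ D D' ψ hC hC' hW hd
  exact one_aux h D D' ψ s φ hC hC' hW hd

end P073.Cut
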