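import Vale.Agent.P073Y.Cut.Cut
import Vale.Agent.P073Y.Cut.One
import Vale.Agent.P073Y.Cut.Keep
import Vale.Agent.P073Y.Cut.Box
import Vale.Agent.P073Y.Cut.Grid

/-!
# Cutting and straightening: all statements
-/

namespace P073.Cut

theorem side1 : SIDE 1 := side_of cut1

theorem side2 : SIDE 2 := side_of cut2

theorem one1 : ONE 1 := one_of cut1

theorem one2 : ONE 2 := one_of cut2

theorem keep : KEEP := keep_of side1 side2 one2

theorem grid3 : GRID3 := grid3_of one1 one2 keep box

end P073.Cut
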