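import Vale.Agent.P073Y.Cut.Sk
import Vale.Agent.P073Z.Ax.All
import Vale.Agent.P073Z.A12.Xc

/-!
# A proper disc splits a ball
-/

open Set Metric Topology Filter

namespace P073.Cut

open P073.Ax P073.Ax.Surg

theorem cut1 : CUT 1 := by
  intro E _ _ C B D hC hD hb
  obtain ⟨p, q, ha, he⟩ := hb.one_arc
  have hp : p ∈ D ∩ B := he ▸ Or.inl rfl
  have hq : q ∈ D ∩ B := he ▸ Or.inr rfl
  obtain ⟨B₁, B₂, h1, h2, h3, h4, -⟩ := arcs.2.2.1 hC.isCircleD hp.2 hq.2 ha.ne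
  obtain ⟨D₁, D₂, k1, k2, k3, k4, k5, k6⟩ := xc hC ha hD he h1 h2 h3 h4
  refine ⟨D₁, D₂, k5 ▸ k1, k6 ▸ k2, ?_, ?_, k3, k4⟩
  · rw [k5, he]; exact h1.conBall
  · rw [k6, he]; exact h2.conBall

theorem cut_space {C B D : Set E3} (hC : ConBall 3 C B) (hD : D ⊆ C)
    (hb : ConBall 2 D (D ∩ B)) :
    ∃ C₁ C₂, ConBall 3 C₁ (D ∪ C₁ ∩ B) ∧ ConBall 3 C₂ (D ∪ C₂ ∩ B) ∧
    ConBall 2 (C₁ ∩ B) (D ∩ B) ∧ ConBall 2 (C₂ ∩ B) (D ∩ B) ∧ C₁ ∪ C₂ = C ∧ C₁ ∩ C₂ = D := by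
  obtain ⟨Δ₁, Δ₂, h1, h2, h3, h4, -⟩ := cos_thm.1 hC.conSphere hb.isCircleD inter_subset_right
  have s1 : Δ₁ ⊆ B := h3 ▸ subset_union_left
  have s2 : Δ₂ ⊆ B := h3 ▸ subset_union_right
  have half : ∀ {Δ : Set E3}, ConBall 2 Δ (D ∩ B) → Δ ⊆ B → ∃ X, ConBall 3 X (D ∪ Δ) ∧
      D ∩ Δ = D ∩ B ∧ X ∩ B = Δ := fun {Δ} h s => by
    have i : D ∩ Δ = D ∩ B := Subset.antisymm (inter_subset_inter_right _ s)
      (subset_inter inter_subset_left h.1)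
    have hS := cos_thm.2.1 hb h i
    have hX := alex hS
    have sub := fill_sub hC hS (union_subset hD (s.trans hC.1))
    have dj := open_disj hC (jb.1 hS).1 (subset_union_right.trans sub)
    refine ⟨_, hX, i, Subset.antisymm ?_ fun x hx => ⟨Or.inl (Or.inr hx), s hx⟩⟩
    rintro x ⟨(hx | hx) | hx, hB⟩
    · exact h.1 ⟨hx, hB⟩
    · exact hx
    · exact absurd hB (disjoint_left.1 dj hx)
  obtain ⟨C₁, b1, i1, e1⟩ := half h1 s1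
  obtain ⟨C₂, b2, i2, e2⟩ := half h2 s2
  have away : ∀ {X Y Δ Γ : Set E3}, ConBall 3 X (D ∪ Δ) → ConBall 3 Y (D ∪ Γ) →
      ConBall 2 Δ (D ∩ B) → X ∩ B = Δ → Y ∩ B = Γ → Δ ∩ Γ = D ∩ B →
      X \ (D ∪ Δ) ⊆ Yᶜ := fun {X Y Δ Γ} bX bY hΔ eX eY i => by
    refine (sideB bY bX.isConnected_int.isPreconnected (disjoint_left.2 fun x hx h => ?_)).resolve_left
      fun h => ?_
    · rcases h with h | h
      · exact hx.2 (Or.inl h)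
      · exact hx.2 (Or.inr (eX ▸ ⟨hx.1, (eY.symm ▸ h : x ∈ Y ∩ B).2⟩))
    · obtain ⟨x, hx, hx'⟩ := hΔ.diff_nonempty
      have hY : x ∈ Y := closure_minimal (h.trans sdiff_subset) bY.isClosed
        (bX.subset_closure_int (bX.1 (Or.inr hx)))
      exact hx' (i ▸ ⟨hx, eY ▸ ⟨hY, (eX.symm ▸ hx : x ∈ X ∩ B).2⟩⟩)
  have a1 := away b1 b2 h1 e1 e2 h4
  have hi : C₁ ∩ C₂ = D := by
    refine Subset.antisymm (fun x hx => ?_)
      (subset_inter (subset_union_left.trans b1.1) (subset_union_left.trans b2.1))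
    by_contra h
    refine a1 ⟨hx.1, ?_⟩ hx.2
    rintro (h' | h')
    · exact h h'
    · exact h (h4 ▸ ⟨h', e2 ▸ ⟨hx.2, s1 h'⟩⟩ : x ∈ D ∩ B).1
  have hU := uni3 b1 b2 hb h1 h2 i1 i2 hi
  rw [h3] at hU
  exact ⟨C₁, C₂, e1 ▸ b1, e2 ▸ b2, e1 ▸ h1, e2 ▸ h2, (fill hU).symm.trans (fill hC), hi⟩

theorem cut2 : CUT 2 := by
  intro E _ _ C B D hC hD hb
  obtain ⟨hB, φ, hφ⟩ := hC
  have hC : ConBall 3 C B := ⟨hB, φ, hφ⟩
  have hi : φ.toFun '' D ∩ φ.toFun '' B = φ.toFun '' (D ∩ B) :=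
    (φ.injOn.image_inter hD hB).symm
  obtain ⟨X₁, X₂, b1, b2, c1, c2, hu, hm⟩ := cut_space (hC.image φ subset_rfl) (image_mono hD)
    (hi ▸ hb.image φ hD)
  rw [φ.image_eq] at hu
  have s1 : X₁ ⊆ closedBall 0 1 := hu ▸ subset_union_left
  have s2 : X₂ ⊆ closedBall 0 1 := hu ▸ subset_union_right
  have sB : φ.toFun '' B ⊆ closedBall 0 1 := φ.imgSubD hB
  have back : ∀ S ⊆ C, φ.symm.toFun '' (φ.toFun '' S) = S := fun S hS => φ.invImgD hS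
  have hin : ∀ X ⊆ closedBall (0 : E3) 1, φ.symm.toFun '' (X ∩ φ.toFun '' B) =
      φ.symm.toFun '' X ∩ B := fun X hX => by
    rw [φ.symm.injOn.image_inter hX sB, back B hB]
  have t3 : ∀ X ⊆ closedBall (0 : E3) 1, ConBall 3 X (φ.toFun '' D ∪ X ∩ φ.toFun '' B) →
      ConBall 3 (φ.symm.toFun '' X) (D ∪ φ.symm.toFun '' X ∩ B) := fun X hX h => by
    have := h.image φ.symm hX
    rwa [image_union, back D hD, hin X hX] at this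
  have t2 : ∀ X ⊆ closedBall (0 : E3) 1,
      ConBall 2 (X ∩ φ.toFun '' B) (φ.toFun '' D ∩ φ.toFun '' B) →
      ConBall 2 (φ.symm.toFun '' X ∩ B) (D ∩ B) := fun X hX h => by
    have := h.image φ.symm (inter_subset_left.trans hX)
    rwa [hi, back _ (inter_subset_left.trans hD), hin X hX] at this
  refine ⟨_, _, t3 _ s1 b1, t3 _ s2 b2, t2 _ s1 c1, t2 _ s2 c2, ?_, ?_⟩
  · rw [← image_union, hu, φ.symm.image_eq]
  · rw [← φ.symm.injOn.image_inter s1 s2, hm, back D hD]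

end P073.Cut
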