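import Vale.Agent.P073Z.Sk1

/-!
# Cutting balls along proper discs; straightening of walls: statements
-/

open Set Metric Topology Filter

namespace P073.Cut

/-- a proper `n`-ball splits an `(n+1)`-ball into two balls -/
def CUT (n : ℕ) : Prop := ∀ {E : Type} [NormedAddCommGroup E] [NormedSpace ℝ E] {C B D : Set E},
  ConBall (n + 1) C B → D ⊆ C → ConBall n D (D ∩ B) →
  ∃ C₁ C₂, ConBall (n + 1) C₁ (D ∪ C₁ ∩ B) ∧ ConBall (n + 1) C₂ (D ∪ C₂ ∩ B) ∧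
    ConBall n (C₁ ∩ B) (D ∩ B) ∧ ConBall n (C₂ ∩ B) (D ∩ B) ∧ C₁ ∪ C₂ = C ∧ C₁ ∩ C₂ = D

/-- cutting along a level of a continuous function -/
def SIDE (n : ℕ) : Prop := ∀ {E : Type} [NormedAddCommGroup E] [NormedSpace ℝ E] {C B : Set E}
  {u : E → ℝ} {a : ℝ}, ConBall (n + 1) C B → ContinuousOn u C →
  ConBall n {x ∈ C | u x = a} {x ∈ B | u x = a} → (∃ x ∈ C, u x < a) → (∃ x ∈ C, a < u x) →
  ConBall (n + 1) {x ∈ C | u x ≤ a} ({x ∈ C | u x = a} ∪ {x ∈ B | u x ≤ a}) ∧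
  ConBall (n + 1) {x ∈ C | a ≤ u x} ({x ∈ C | u x = a} ∪ {x ∈ B | a ≤ u x})

/-- extension over a ball, prescribed on the boundary and on disjoint proper walls -/
def ONE (n : ℕ) : Prop := ∀ {E F : Type} [NormedAddCommGroup E] [NormedSpace ℝ E]
  [NormedAddCommGroup F] [NormedSpace ℝ F] {ι : Type} (s : Finset ι) {C B : Set E} {C' B' : Set F}
  (φ : ConHomeo B B') (D : ι → Set E) (D' : ι → Set F) (ψ : ι → E → F),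
  ConBall (n + 1) C B → ConBall (n + 1) C' B' →
  (∀ i ∈ s, D i ⊆ C ∧ ConBall n (D i) (D i ∩ B) ∧ D' i ⊆ C' ∧ ConBall n (D' i) (D' i ∩ B') ∧
    φ.toFun '' (D i ∩ B) = D' i ∩ B' ∧ EqOn (ψ i) φ.toFun (D i ∩ B) ∧
    ∃ χ : ConHomeo (D i) (D' i), EqOn χ.toFun (ψ i) (D i)) →
  (∀ i ∈ s, ∀ j ∈ s, i ≠ j → Disjoint (D i) (D j) ∧ Disjoint (D' i) (D' j)) →
  ∃ Φ : ConHomeo C C', EqOn Φ.toFun φ.toFun B ∧ ∀ i ∈ s, EqOn Φ.toFun (ψ i) (D i)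

/-- moving one family of walls onto another one, keeping levels of `u` fixed -/
def KEEP : Prop := ∀ {E : Type} [NormedAddCommGroup E] [NormedSpace ℝ E] {κ : Type}
  (s : Finset ℝ) (t : Finset κ) {C B : Set E} {u : E → ℝ} (W W' : κ → Set E),
  ConBall 3 C B → ContinuousOn u C →
  (∀ a ∈ s, ConBall 2 {x ∈ C | u x = a} {x ∈ B | u x = a} ∧ (∃ x ∈ C, u x < a) ∧
    ∃ x ∈ C, a < u x) →
  (∀ j ∈ t, W j ⊆ C ∧ ConBall 2 (W j) (W j ∩ B) ∧ W' j ⊆ C ∧ ConBall 2 (W' j) (W' j ∩ B) ∧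
    W j ∩ B = W' j ∩ B ∧ ∀ a ∈ s, {x ∈ W j | u x = a} = {x ∈ W' j | u x = a} ∧
      ConBall 1 {x ∈ W j | u x = a} {x ∈ W j ∩ B | u x = a} ∧
      (∃ x ∈ W j ∩ B, u x < a) ∧ ∃ x ∈ W j ∩ B, a < u x) →
  (∀ i ∈ t, ∀ j ∈ t, i ≠ j → Disjoint (W i) (W j) ∧ Disjoint (W' i) (W' j)) →
  ∃ Φ : ConHomeo C C, (∀ x ∈ B, Φ.toFun x = x) ∧ (∀ x ∈ C, u x ∈ s → Φ.toFun x = x) ∧
    ∀ j ∈ t, Φ.toFun '' W j = W' j

/-- boxes, their sections and lines -/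
def BOX : Prop := ∀ {lo hi : E3}, (∀ i, lo i < hi i) →
  ConBall 3 (Icc lo hi) (frontier (Icc lo hi)) ∧
  (∀ y, y ∈ frontier (Icc lo hi) ↔ y ∈ Icc lo hi ∧ ∃ i, y i = lo i ∨ y i = hi i) ∧
  (∀ k, ∀ a ∈ Ioo (lo k) (hi k),
    ConBall 2 {y ∈ Icc lo hi | y k = a} {y ∈ frontier (Icc lo hi) | y k = a}) ∧
  ∀ a ∈ Ioo (lo 0) (hi 0), ∀ b ∈ Ioo (lo 1) (hi 1),
    IsArc {y ∈ Icc lo hi | y 0 = a ∧ y 1 = b} ![a, b, lo 2] ![a, b, hi 2] ∧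
    {y ∈ frontier (Icc lo hi) | y 0 = a ∧ y 1 = b} = {![a, b, lo 2], ![a, b, hi 2]}

/-- straightening of two families of walls which meet in arcs -/
def GRID3 : Prop := ∀ {E : Type} [NormedAddCommGroup E] [NormedSpace ℝ E] {C B : Set E}
  {lo hi : E3} (φ : ConHomeo B (frontier (Icc lo hi))) (s t : Finset ℝ) (A W : ℝ → Set E),
  (∀ i, lo i < hi i) → ConBall 3 C B →
  (∀ a ∈ s, a ∈ Ioo (lo 0) (hi 0) ∧ A a ⊆ C ∧ ConBall 2 (A a) (A a ∩ B) ∧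
    A a ∩ B = {x ∈ B | φ.toFun x 0 = a}) →
  (∀ b ∈ t, b ∈ Ioo (lo 1) (hi 1) ∧ W b ⊆ C ∧ ConBall 2 (W b) (W b ∩ B) ∧
    W b ∩ B = {x ∈ B | φ.toFun x 1 = b}) →
  (∀ a ∈ s, ∀ a' ∈ s, a ≠ a' → Disjoint (A a) (A a')) →
  (∀ b ∈ t, ∀ b' ∈ t, b ≠ b' → Disjoint (W b) (W b')) →
  (∀ a ∈ s, ∀ b ∈ t, ∃ p ∈ B, ∃ q ∈ B, IsArc (A a ∩ W b) p q) →
  ∃ G : ConHomeo C (Icc lo hi), EqOn G.toFun φ.toFun B ∧
    (∀ a ∈ s, G.toFun '' A a = {y ∈ Icc lo hi | y 0 = a}) ∧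
    ∀ b ∈ t, G.toFun '' W b = {y ∈ Icc lo hi | y 1 = b}

end P073.Cut
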